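import Vale.Agent.N203.Main
import Mathlib.GroupTheory.NoncommPiCoprod
import Mathlib.LinearAlgebra.Matrix.Nondegenerate

/-! The centre of an Artin group is trivial if and only if there is no spherical factor. -/

set_option linter.all false

namespace Vale.Agent.N203

open CategoryTheory Limits CoxeterSystem Vale.Agent.P203 Vale.Agent.P203.Gar Vale.Agent.P203.Cox

/-- A group with vanishing cohomology in degree `n + 1` does not contain `ℤ × ℤ^n`. -/
theorem not_injective {G : Type} [Group G] {n : ℕ}
    (h : ∀ V : Rep ℤ G, IsZero (groupCohomology V (n + 1)))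
    (Φ : Multiplicative ℤ × (Fin n → Multiplicative ℤ) →* G) : ¬ Function.Injective Φ := by
  classical
  intro hΦ
  let e := MonoidHom.ofInjective hΦ
  let x : Fin (n + 1) → Multiplicative ℤ × (Fin n → Multiplicative ℤ) → ℤ :=
    Fin.cons (fun p => p.1.toAdd) fun j p => (p.2 j).toAdd
  let z : Fin (n + 1) → Multiplicative ℤ × (Fin n → Multiplicative ℤ) :=
    Fin.cons (Multiplicative.ofAdd 1, 1) fun j => (1, Pi.mulSingle j (Multiplicative.ofAdd 1))
  refine not_isZero (G := Φ.range) (fun i a => x i (e.symm a)) (fun i a b => ?_)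
    (fun i => e (z i)) (fun i j => by rw [← map_mul, ← map_mul, mul_comm]) ?_
    ((h _).of_iso (groupCohomology.coindIso _ _).symm)
  · rw [map_mul]
    refine Fin.cases ?_ (fun i => ?_) i <;> simp [x]
  · have : (Matrix.of fun j i => x i (e.symm (e (z j)))) = 1 := by
      ext j i
      rw [Matrix.of_apply, e.symm_apply_apply]
      refine Fin.cases ?_ (fun j => ?_) j <;> refine Fin.cases ?_ (fun i => ?_) i
      · simp [x, z]
      · simp [x, z, Matrix.one_apply, (Fin.succ_ne_zero i).symm]
      · simp [x, z, Matrix.one_apply]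
      · by_cases hij : j = i
        · subst hij
          simp [x, z]
        · simp [x, z, Matrix.one_apply, hij, Pi.mulSingle_eq_of_ne (Ne.symm hij)]
    rw [this, Matrix.det_one]
    exact one_ne_zero

variable {S : Type} {M : CoxeterMatrix S}

/-- If all conjugates of a simple reflection lie in `W_T`, then `T` contains a nonempty union of
components of the diagram. -/
theorem exists_factor {T : Set S} {s : S} (h : ∀ w : M.Group, w * M.simple s * w⁻¹ ∈ WP M T) :
    ∃ U : Set S, s ∈ U ∧ U ⊆ T ∧ ∀ u ∈ U, ∀ t ∉ U, M u t = 2 := by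
  classical
  let cs := M.toCoxeterSystem
  refine ⟨{u | ∃ w : M.Group, root cs (w * cs.simple s * w⁻¹) u ≠ 0}, ⟨1, ?_⟩, ?_, ?_⟩
  · rw [inv_one, one_mul, mul_one, root_simple, Finsupp.single_eq_same]
    exact one_ne_zero
  · rintro u ⟨w, hw⟩
    by_contra hu
    have h1 := act_parab_apply (cs := cs) (h w) (root cs (w * cs.simple s * w⁻¹)) hu
    change act cs (w * cs.simple s * w⁻¹) _ u = _ at h1
    rw [act_root_self (isRefl_conj_simple w s), Finsupp.neg_apply] at h1
    exact hw (by linarith)
  · rintro u ⟨w, hw⟩ t ht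
    have ht' : ∀ w : M.Group, root cs (w * cs.simple s * w⁻¹) t = 0 := fun w => by
      by_contra hne
      exact ht ⟨w, hne⟩
    set β := root cs (w * cs.simple s * w⁻¹) with hβ
    have h1 : act cs (cs.simple t) β t = 0 := by
      have e : cs.simple t * (w * cs.simple s * w⁻¹) * (cs.simple t)⁻¹ =
          (cs.simple t * w) * cs.simple s * (cs.simple t * w)⁻¹ := by group
      rcases act_root_eq_or (cs.simple t) (isRefl_conj_simple (cs := cs) w s) with h2 | h2
      · rw [h2, e, ht']
      · rw [h2, e, Finsupp.neg_apply, ht', neg_zero]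
    rw [act_simple, Finsupp.sub_apply, ht' w, Finsupp.smul_apply, Finsupp.single_eq_same,
      smul_eq_mul, mul_one, zero_sub, neg_eq_zero] at h1
    have h2 : form M (Finsupp.single t 1) β = ∑ v ∈ β.support, β v * gram M t v := by
      conv_lhs => rw [← Finsupp.sum_single β, Finsupp.sum, map_sum]
      refine Finset.sum_congr rfl fun v _ => ?_
      rw [form_single, one_mul]
    have hne : ∀ v ∈ β.support, t ≠ v := by
      rintro v hv rfl
      exact Finsupp.mem_support_iff.1 hv (ht' w)
    rw [h2, Finset.sum_eq_zero_iff_of_nonpos fun v hv =>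
      mul_nonpos_of_nonneg_of_nonpos (root_nonneg _ v) (Vin.gram_nonpos (hne v hv))] at h1
    have hu : u ∈ β.support := Finsupp.mem_support_iff.2 hw
    by_contra h3
    have h4 := Vin.gram_neg (M := M) (hne u hu) (by rwa [M.symmetric])
    rcases mul_eq_zero.1 (h1 u hu) with h5 | h5
    · exact hw h5
    · exact h4.ne h5

theorem wind_central {y : ArtinGroup M} (hy : y ∈ Subgroup.center (ArtinGroup M))
    (h1 : toW M y = 1) (w x : M.Group) : wind y (w * x * w⁻¹) = wind y x := by
  have h2 := congrArg (fun a => wind a x) (Subgroup.mem_center_iff.1 hy (tl w))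
  simp only [wind_mul, h1, toW_tl, inv_one, one_mul, mul_one] at h2
  linarith

theorem center_eq_bot [Finite S]
    (h : ∀ U : Finset S, U.Nonempty → Spherical M U → ∃ s ∈ U, ∃ t ∉ U, M s t ≠ 2) :
    Subgroup.center (ArtinGroup M) = ⊥ := by
  classical
  letI : Fintype S := Fintype.ofFinite S
  rw [eq_bot_iff]
  intro g hg
  rw [Subgroup.mem_bot]
  obtain ⟨T, hT, hmax⟩ := Finset.exists_max_image
    (Finset.univ.filter fun T : Finset S => Spherical M T) Finset.card
    ⟨∅, Finset.mem_filter.2 ⟨Finset.mem_univ _, Sph.spherical_empty⟩⟩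
  have hT' : Spherical M T := (Finset.mem_filter.1 hT).2
  obtain ⟨e, z, hz, hdet⟩ := exists_torus hT'
  let ψ : (Fin T.card → Multiplicative ℤ) →* PT M T :=
    MonoidHom.noncommPiCoprod (fun j => zpowersHom (PT M T) (z j)) fun i j _ a b =>
      Commute.zpow_zpow (hz i j) _ _
  let Φ : Multiplicative ℤ × (Fin T.card → Multiplicative ℤ) →* ArtinGroup M :=
    MonoidHom.noncommCoprod (zpowersHom _ g) ((PT M T).subtype.comp ψ) fun a b =>
      Commute.zpow_left (Subgroup.mem_center_iff.1 hg _).symm _
  have hni := not_injective (fun V => isZero_above M _ (fun U hU e => by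
    have := hmax U (Finset.mem_filter.2 ⟨Finset.mem_univ _, hU⟩)
    omega) V) Φ
  rw [injective_iff_map_eq_one] at hni
  push Not at hni
  obtain ⟨⟨k, a⟩, h1, h2⟩ := hni
  change g ^ k.toAdd * (ψ a).1 = 1 at h1
  have hy : (ψ a).1 ∈ Subgroup.center (ArtinGroup M) := by
    rw [eq_inv_of_mul_eq_one_right h1]
    exact inv_mem (zpow_mem hg _)
  have hw : ∀ s : S, wind (ψ a).1 (M.simple s) = 0 := by
    intro s
    by_contra hne
    obtain ⟨U, hs, hUT, hU⟩ := exists_factor (M := M) (T := (T : Set S)) (s := s) fun w => by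
      by_contra hn
      rw [← wind_central hy (ψ a).2.1 w] at hne
      exact hne (wind_eq_zero (ψ a).2.2 _ hn)
    obtain ⟨u, hu, t, ht, hut⟩ := h (Finset.univ.filter (· ∈ U)) ⟨s, by simpa using hs⟩
      (hT'.subset fun u hu => hUT (by simpa using hu))
    exact hut (hU u (by simpa using hu) t (by simpa using ht))
  have hform : ∀ (x : M.Group) (a : Fin T.card → Multiplicative ℤ),
      wind (ψ a).1 x = ∑ j, (a j).toAdd * wind (z j).1 x := by
    intro x
    let X : PT M T →* Multiplicative ℤ :=
      MonoidHom.mk' (fun b => Multiplicative.ofAdd (wind b.1 x)) fun b c => by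
        rw [wind_add, ofAdd_add]
    let Y : (Fin T.card → Multiplicative ℤ) →* Multiplicative ℤ :=
      MonoidHom.mk' (fun a => Multiplicative.ofAdd (∑ j, (a j).toAdd * wind (z j).1 x))
        fun b c => by
          rw [← ofAdd_add, ← Finset.sum_add_distrib]
          simp only [Pi.mul_apply, toAdd_mul, add_mul]
    have hXY : X.comp ψ = Y := by
      refine MonoidHom.functions_ext _ _ _ fun j c => ?_
      have e1 : ψ (Pi.mulSingle j c) = z j ^ c.toAdd :=
        MonoidHom.noncommPiCoprod_mulSingle (fun j => zpowersHom (PT M T) (z j)) j c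
      rw [MonoidHom.comp_apply, e1, map_zpow]
      change Multiplicative.ofAdd (wind (z j).1 x) ^ c.toAdd = Multiplicative.ofAdd _
      rw [← ofAdd_zsmul, Finset.sum_eq_single j, Pi.mulSingle_eq_same, smul_eq_mul]
      · intro i _ hij
        rw [Pi.mulSingle_eq_of_ne hij, toAdd_one, zero_mul]
      · intro hj
        exact absurd (Finset.mem_univ j) hj
    intro a
    exact Multiplicative.ofAdd.injective (DFunLike.congr_fun hXY a)
  have ha0 : (fun j => (a j).toAdd) = 0 := by
    refine Matrix.eq_zero_of_vecMul_eq_zero hdet (funext fun i => ?_)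
    have := hform (M.simple (e i)) a
    rw [hw] at this
    exact this.symm
  have ha : a = 1 := funext fun j => Multiplicative.toAdd.injective (congrFun ha0 j)
  rw [ha, map_one, OneMemClass.coe_one, mul_one] at h1
  have hk : k.toAdd ≠ 0 := fun hk => h2 (Prod.ext (Multiplicative.toAdd.injective hk) ha)
  refine torsion_free M g k.toAdd.natAbs (Int.natAbs_ne_zero.2 hk) ?_
  rw [pow_natAbs_eq_one, h1]

theorem center_ne_bot {U : Finset S} (hne : U.Nonempty) (hU : Spherical M U)
    (h : ∀ s ∈ U, ∀ t ∉ U, M s t = 2) : Subgroup.center (ArtinGroup M) ≠ ⊥ := by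
  haveI : Finite (WP M (U : Set S)) := hU
  have hc : ∀ t ∉ U, ∀ a ∈ AP M (U : Set S), Commute a (artinGen M t) := by
    intro t ht a ha
    induction ha using Subgroup.closure_induction with
    | mem a ha =>
      obtain ⟨s, hs, rfl⟩ := ha
      have h1 := isBraided_artinGen M s t (by rw [h s hs t ht]; norm_num)
      rw [h s hs t ht] at h1
      show artinGen M s * artinGen M t = artinGen M t * artinGen M s
      simpa [alternatingWord] using h1
    | one => exact Commute.one_left _
    | mul a b _ _ iha ihb => exact iha.mul_left ihb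
    | inv a _ ih => exact ih.inv_left
  have hz : Dl M U * Dl M U ∈ Subgroup.center (ArtinGroup M) := by
    rw [Subgroup.mem_center_iff]
    intro g
    refine (Subgroup.mem_centralizer_singleton_iff.1 (PresentedGroup.generated_by _
      (Subgroup.centralizer {Dl M U * Dl M U}) (fun t => ?_) g))
    rw [Subgroup.mem_centralizer_singleton_iff]
    by_cases ht : t ∈ U
    · exact (sq_comm (T := (U : Set S)) (gen_mem_AP ht)).symm.eq
    · exact (hc t ht _ (mul_mem Dl_mem_AP Dl_mem_AP)).symm.eq
  intro hb
  rw [hb, Subgroup.mem_bot] at hz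
  obtain ⟨s, hs⟩ := hne
  have := wind_sq_pos (M := M) (T := (U : Set S)) hs
  rw [hz, wind_one] at this
  exact lt_irrefl _ this

theorem center_iff [Finite S] : Subgroup.center (ArtinGroup M) = ⊥ ↔
    ∀ U : Finset S, U.Nonempty → Spherical M U → ∃ s ∈ U, ∃ t ∉ U, M s t ≠ 2 := by
  refine ⟨fun hb U hne hU => ?_, center_eq_bot⟩
  by_contra hc
  push Not at hc
  exact center_ne_bot hne hU hc hb

end Vale.Agent.N203
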