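import Mathlib.RepresentationTheory.Homological.GroupCohomology.FiniteCyclic
import Mathlib.RepresentationTheory.Homological.GroupCohomology.Shapiro
import Mathlib.RepresentationTheory.Homological.GroupCohomology.LowDegree
import Mathlib.LinearAlgebra.Matrix.Block
import Mathlib.GroupTheory.Perm.Fin
import Mathlib.Tactic

/-! Group cohomology: vanishing from a finite free resolution, no torsion from vanishing, and a
nonzero class from commuting elements. -/

set_option linter.all false

namespace Vale.Agent.N203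

open CategoryTheory Limits

variable {G : Type} [Group G]

/-- A projective resolution of the trivial module gives vanishing above its length. -/
theorem isZero_of_resolution {k : Type} [CommRing k] (C : ℕ → Type) [∀ n, AddCommGroup (C n)]
    [∀ n, Module (MonoidAlgebra k G) (C n)] [∀ n, Module.Projective (MonoidAlgebra k G) (C n)]
    (d : ∀ n, C (n + 1) →ₗ[MonoidAlgebra k G] C n)
    (hd : ∀ n, Function.Exact (d (n + 1)) (d n))
    (ε : C 0 →ₗ[MonoidAlgebra k G] (Rep.trivial k G k).ρ.asModule)
    (hε : Function.Exact (d 0) ε) (hs : Function.Surjective ε)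
    (n : ℕ) (hn : Subsingleton (C n)) (V : Rep k G) : IsZero (groupCohomology V n) := by
  let K : ChainComplex (ModuleCat (MonoidAlgebra k G)) ℕ :=
    ChainComplex.of (fun n => ModuleCat.of _ (C n)) (fun n => ModuleCat.ofHom (d n)) fun n => by
      ext x
      exact (hd n).apply_apply_eq_zero x
  have hKd : ∀ n, K.d (n + 1) n = ModuleCat.ofHom (d n) := fun n => ChainComplex.of_d (fun n => ModuleCat.of _ (C n))
    (fun n => ModuleCat.ofHom (d n)) n
  let Z : ModuleCat (MonoidAlgebra k G) := Rep.toModuleMonoidAlgebra.obj (Rep.trivial k G k)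
  let e : K.X 0 ⟶ Z := ModuleCat.ofHom ε
  have he : K.d 1 0 ≫ e = 0 := by
    rw [hKd 0]
    ext x
    exact hε.apply_apply_eq_zero x
  let π : K ⟶ (ChainComplex.single₀ _).obj Z := (K.toSingle₀Equiv Z).symm ⟨e, he⟩
  have hπ0 : π.f 0 = e := ChainComplex.toSingle₀Equiv_symm_apply_f_zero _ _
  have hπ : QuasiIso π := ⟨fun m => by
    induction m with
    | zero =>
      rw [ChainComplex.quasiIsoAt₀_iff, ShortComplex.quasiIso_iff_of_zeros' _ rfl rfl rfl]
      constructor
      · rw [ShortComplex.moduleCat_exact_iff]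
        intro x hx
        have h1 : ε x = 0 := by
          change π.f 0 x = 0 at hx
          rw [hπ0] at hx
          exact hx
        obtain ⟨y, hy⟩ := (hε x).1 h1
        refine ⟨y, ?_⟩
        change K.d 1 0 y = x
        rw [hKd 0]
        exact hy
      · rw [ModuleCat.epi_iff_surjective]
        intro x
        obtain ⟨y, hy⟩ := hs x
        refine ⟨y, ?_⟩
        change π.f 0 y = x
        rw [hπ0]
        exact hy
    | succ m _ =>
      rw [quasiIsoAt_iff_exactAt' (hL := ChainComplex.exactAt_succ_single_obj ..),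
        HomologicalComplex.exactAt_iff' _ (m + 2) (m + 1) m (by simp) (by simp),
        ShortComplex.moduleCat_exact_iff]
      intro x hx
      change K.d (m + 1) m x = 0 at hx
      rw [hKd m] at hx
      obtain ⟨y, hy⟩ := (hd m x).1 hx
      refine ⟨y, ?_⟩
      change K.d (m + 2) (m + 1) y = x
      rw [hKd (m + 1)]
      exact hy⟩
  let Q : ProjectiveResolution Z :=
    { complex := K
      projective := fun n => (inferInstance : Projective (ModuleCat.of (MonoidAlgebra k G) (C n)))
      π := π
      quasiIso := hπ }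
  let F := Rep.ofModuleMonoidAlgebra (k := k) (G := G)
  haveI : F.Additive := Functor.additive_of_preserves_binary_products F
  let P0 := F.mapProjectiveResolution Q
  let P : ProjectiveResolution (Rep.trivial k G k) :=
    { complex := P0.complex
      π := P0.π ≫ (ChainComplex.single₀ _).map (Rep.unitIso (Rep.trivial k G k)).inv }
  refine IsZero.of_iso ?_ (groupCohomologyIso V n P)
  have h0 : IsZero (P.complex.X n) :=
    F.map_isZero (ModuleCat.isZero_of_subsingleton (ModuleCat.of (MonoidAlgebra k G) (C n)))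
  have h1 : IsZero ((P.complex.linearYonedaObj k V).X n) := by
    haveI : Subsingleton (P.complex.X n ⟶ V) := ⟨fun f g => h0.eq_of_src f g⟩
    exact ModuleCat.isZero_of_subsingleton (ModuleCat.of k (P.complex.X n ⟶ V))
  exact (HomologicalComplex.ExactAt.of_isZero h1).isZero_homology

/-- A group whose cohomology vanishes in some positive even degree has no torsion. -/
theorem eq_one_of_isZero (i : ℕ) (h : ∀ V : Rep ℤ G, IsZero (groupCohomology V (2 * (i + 1))))
    (g : G) (n : ℕ) (hn : n ≠ 0) (hg : g ^ n = 1) : g = 1 := by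
  classical
  have hfin : IsOfFinOrder g := isOfFinOrder_iff_pow_eq_one.2 ⟨n, Nat.pos_of_ne_zero hn, hg⟩
  haveI : Finite (Subgroup.zpowers g) := hfin.finite_zpowers
  letI : Fintype (Subgroup.zpowers g) := Fintype.ofFinite _
  have h1 : IsZero (groupCohomology (Rep.trivial ℤ (Subgroup.zpowers g) ℤ) (2 * (i + 1))) :=
    (h _).of_iso (groupCohomology.coindIso _ _).symm
  letI : CommGroup (Subgroup.zpowers g) :=
    { (inferInstance : Group (Subgroup.zpowers g)) with
      mul_comm := fun a b => by
        obtain ⟨_, x, rfl⟩ := a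
        obtain ⟨_, y, rfl⟩ := b
        exact Subtype.ext (zpow_mul_comm g x y) }
  have hgen : ∀ x : Subgroup.zpowers g,
      x ∈ Subgroup.zpowers (⟨g, Subgroup.mem_zpowers g⟩ : Subgroup.zpowers g) := by
    rintro ⟨_, x, rfl⟩
    exact ⟨x, Subtype.ext (by simp)⟩
  haveI : NeZero (2 * (i + 1)) := ⟨by omega⟩
  have h2 := (Rep.FiniteCyclicGroup.groupCohomologyπEven_eq_zero_iff
    (Rep.trivial ℤ (Subgroup.zpowers g) ℤ) _ hgen (2 * (i + 1)) (even_two_mul _)
    ⟨(1 : ℤ), by simp [Rep.sub_hom, Rep.applyAsHom]⟩).1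
    ((ModuleCat.subsingleton_of_isZero h1).elim _ _)
  obtain ⟨y, hy⟩ := h2
  have h3 : (Fintype.card (Subgroup.zpowers g) : ℤ) * y = 1 := by
    simpa [Rep.norm, Representation.norm] using hy
  have h4 : Fintype.card (Subgroup.zpowers g) = 1 := by
    have := Int.eq_one_of_mul_eq_one_right (Int.natCast_nonneg _) h3
    exact_mod_cast this
  rw [← Nat.card_eq_fintype_card, Nat.card_zpowers, orderOf_eq_one_iff] at h4
  exact h4

/-- The product of additive functions is a cocycle. -/
theorem cocycle_prod {n : ℕ} (x : Fin n → G → ℤ) (hx : ∀ i a b, x i (a * b) = x i a + x i b)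
    (g : Fin (n + 1) → G) :
    (∏ i, x i (g i.succ)) + ∑ j : Fin (n + 1),
      (-1 : ℤ) ^ ((j : ℕ) + 1) * ∏ i, x i (Fin.contractNth j (· * ·) g i) = 0 := by
  classical
  let P : ℕ → ℤ := fun j => ∏ i : Fin n, if (i : ℕ) < j then x i (g i.castSucc) else x i (g i.succ)
  have h0 : (∏ i, x i (g i.succ)) = P 0 := by simp [P]
  have hl : (∏ i, x i (Fin.contractNth (Fin.last n) (· * ·) g i)) = P n := by
    refine Finset.prod_congr rfl fun i _ => ?_
    rw [Fin.contractNth_apply_of_lt _ _ _ _ (by simp), if_pos i.2]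
  have hm : ∀ j : Fin n, (∏ i, x i (Fin.contractNth j.castSucc (· * ·) g i)) =
      P (j + 1) + P j := by
    intro j
    have e : ∀ (f : Fin n → ℤ), ∏ i, f i = f j * ∏ i ∈ Finset.univ.erase j, f i :=
      fun f => (Finset.mul_prod_erase _ _ (Finset.mem_univ j)).symm
    simp only [P]
    rw [e, e (fun i => if (i : ℕ) < j + 1 then _ else _), e (fun i => if (i : ℕ) < j then _ else _),
      Fin.contractNth_apply_of_eq _ _ _ _ (by simp), hx, if_pos (Nat.lt_succ_self _),
      if_neg (lt_irrefl _), add_mul]
    congr 2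
    · refine Finset.prod_congr rfl fun i hi => ?_
      have hne : (i : ℕ) ≠ j := fun h => (Finset.ne_of_mem_erase hi) (Fin.ext h)
      rcases lt_or_gt_of_ne hne with h | h
      · rw [Fin.contractNth_apply_of_lt _ _ _ _ (by simpa using h), if_pos (by omega)]
      · rw [Fin.contractNth_apply_of_gt _ _ _ _ (by simpa using h), if_neg (by omega)]
    · refine Finset.prod_congr rfl fun i hi => ?_
      have hne : (i : ℕ) ≠ j := fun h => (Finset.ne_of_mem_erase hi) (Fin.ext h)
      rcases lt_or_gt_of_ne hne with h | h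
      · rw [Fin.contractNth_apply_of_lt _ _ _ _ (by simpa using h), if_pos h]
      · rw [Fin.contractNth_apply_of_gt _ _ _ _ (by simpa using h), if_neg (by omega)]
  have ht : ∀ k : ℕ, ∑ j ∈ Finset.range k, (-1 : ℤ) ^ (j + 1) * (P (j + 1) + P j) =
      (-1) ^ k * P k - P 0 := by
    intro k
    induction k with
    | zero => simp
    | succ k ih => rw [Finset.sum_range_succ, ih]; ring
  rw [Fin.sum_univ_castSucc, hl, h0]
  simp only [hm, Fin.val_castSucc, Fin.val_last]
  rw [Fin.sum_univ_eq_sum_range (fun j => (-1 : ℤ) ^ (j + 1) * (P (j + 1) + P j)) n, ht]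
  ring

/-- Coboundaries vanish on the alternating sum over commuting elements. -/
theorem alt_coboundary {n : ℕ} (h : (Fin n → G) → ℤ) (z : Fin (n + 1) → G)
    (hz : ∀ i j, z i * z j = z j * z i) :
    ∑ σ : Equiv.Perm (Fin (n + 1)), ((Equiv.Perm.sign σ : ℤˣ) : ℤ) *
      (h (fun i => z (σ i.succ)) + ∑ j : Fin (n + 1),
        (-1 : ℤ) ^ ((j : ℕ) + 1) * h (Fin.contractNth j (· * ·) fun i => z (σ i))) = 0 := by
  classical
  have hmid : ∀ j : Fin n, ∑ σ : Equiv.Perm (Fin (n + 1)), ((Equiv.Perm.sign σ : ℤˣ) : ℤ) *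
      h (Fin.contractNth j.castSucc (· * ·) fun i => z (σ i)) = 0 := by
    intro j
    have hne : j.castSucc ≠ j.succ := (Fin.castSucc_lt_succ (i := j)).ne
    have e := Equiv.sum_comp (Equiv.mulRight (Equiv.swap j.castSucc j.succ))
      (fun σ : Equiv.Perm (Fin (n + 1)) => ((Equiv.Perm.sign σ : ℤˣ) : ℤ) *
        h (Fin.contractNth j.castSucc (· * ·) fun i => z (σ i)))
    have e2 : ∀ σ : Equiv.Perm (Fin (n + 1)),
        (Fin.contractNth j.castSucc (· * ·) fun i => z ((σ * Equiv.swap j.castSucc j.succ) i)) =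
          Fin.contractNth j.castSucc (· * ·) fun i => z (σ i) := by
      intro σ
      funext i
      rcases lt_trichotomy (i : ℕ) j with hi | hi | hi
      · rw [Fin.contractNth_apply_of_lt _ _ _ _ (by simpa using hi),
          Fin.contractNth_apply_of_lt _ _ _ _ (by simpa using hi), Equiv.Perm.mul_apply,
          Equiv.swap_apply_of_ne_of_ne]
        · intro h; have := congrArg Fin.val h; simp at this; omega
        · intro h; have := congrArg Fin.val h; simp at this; omega
      · obtain rfl : i = j := Fin.ext hi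
        rw [Fin.contractNth_apply_of_eq _ _ _ _ (by simp),
          Fin.contractNth_apply_of_eq _ _ _ _ (by simp), Equiv.Perm.mul_apply,
          Equiv.Perm.mul_apply, Equiv.swap_apply_left, Equiv.swap_apply_right, hz]
      · rw [Fin.contractNth_apply_of_gt _ _ _ _ (by simpa using hi),
          Fin.contractNth_apply_of_gt _ _ _ _ (by simpa using hi), Equiv.Perm.mul_apply,
          Equiv.swap_apply_of_ne_of_ne]
        · intro h; have := congrArg Fin.val h; simp at this; omega
        · intro h; have := congrArg Fin.val h; simp at this; omega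
    simp only [Equiv.coe_mulRight, e2, Equiv.Perm.sign_mul, Equiv.Perm.sign_swap hne,
      Units.val_mul, Units.val_neg, Units.val_one, mul_neg, mul_one, neg_mul,
      Finset.sum_neg_distrib] at e
    linarith
  have hend : ∑ σ : Equiv.Perm (Fin (n + 1)), ((Equiv.Perm.sign σ : ℤˣ) : ℤ) *
      h (Fin.contractNth (Fin.last n) (· * ·) fun i => z (σ i)) =
      (-1) ^ n * ∑ σ : Equiv.Perm (Fin (n + 1)), ((Equiv.Perm.sign σ : ℤˣ) : ℤ) *
        h (fun i => z (σ i.succ)) := by
    rw [← Equiv.sum_comp (Equiv.mulRight (finRotate (n + 1))), Finset.mul_sum]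
    refine Finset.sum_congr rfl fun σ _ => ?_
    have e2 : (Fin.contractNth (Fin.last n) (· * ·) fun i => z ((σ * finRotate (n + 1)) i)) =
        fun i => z (σ i.succ) := by
      funext i
      rw [Fin.contractNth_apply_of_lt _ _ _ _ (by simp), Equiv.Perm.mul_apply,
        finRotate_succ_apply, Fin.coeSucc_eq_succ]
    simp only [Equiv.coe_mulRight, e2, Equiv.Perm.sign_mul, sign_finRotate, Units.val_mul,
      Units.val_pow_eq_pow_val, Units.val_neg, Units.val_one, Nat.add_sub_cancel]
    ring
  simp only [mul_add, Finset.sum_add_distrib, Finset.mul_sum]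
  rw [Finset.sum_comm, Fin.sum_univ_castSucc]
  have e3 : ∀ j : Fin (n + 1), ∑ σ : Equiv.Perm (Fin (n + 1)), ((Equiv.Perm.sign σ : ℤˣ) : ℤ) *
      ((-1 : ℤ) ^ ((j : ℕ) + 1) * h (Fin.contractNth j (· * ·) fun i => z (σ i))) =
      (-1 : ℤ) ^ ((j : ℕ) + 1) * ∑ σ : Equiv.Perm (Fin (n + 1)), ((Equiv.Perm.sign σ : ℤˣ) : ℤ) *
        h (Fin.contractNth j (· * ·) fun i => z (σ i)) := by
    intro j
    rw [Finset.mul_sum]
    exact Finset.sum_congr rfl fun σ _ => by ring
  rw [e3 (Fin.last n), hend]
  simp only [e3, hmid, mul_zero, Finset.sum_const_zero, zero_add, Fin.val_last]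
  rw [← mul_assoc, ← pow_add, show n + 1 + n = 2 * n + 1 by ring, pow_succ, pow_mul]
  simp

theorem d_triv {n : ℕ} (f : (Fin n → G) → ℤ) (g : Fin (n + 1) → G) :
    inhomogeneousCochains.d (Rep.trivial ℤ G ℤ) n f g = f (fun i => g i.succ) +
      ∑ j : Fin (n + 1), (-1 : ℤ) ^ ((j : ℕ) + 1) * f (Fin.contractNth j (· * ·) g) := rfl

/-- Additive functions that are independent on commuting elements give a nonzero class. -/
theorem not_isZero {n : ℕ} (x : Fin n → G → ℤ) (hx : ∀ i a b, x i (a * b) = x i a + x i b)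
    (z : Fin n → G) (hz : ∀ i j, z i * z j = z j * z i)
    (hdet : (Matrix.of fun j i => x i (z j)).det ≠ 0) :
    ¬ IsZero (groupCohomology (Rep.trivial ℤ G ℤ) n) := by
  classical
  intro h0
  have h1 : (groupCohomology.inhomogeneousCochains (Rep.trivial ℤ G ℤ)).ExactAt n :=
    (HomologicalComplex.exactAt_iff_isZero_homology _ _).2 h0
  let f : (Fin n → G) → ℤ := fun g => ∏ i, x i (g i)
  have hf : inhomogeneousCochains.d (Rep.trivial ℤ G ℤ) n f = 0 := by
    funext g
    have := cocycle_prod x hx g
    rw [d_triv]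
    exact this
  apply hdet
  rw [Matrix.det_apply]
  cases n with
  | zero =>
    rw [HomologicalComplex.exactAt_iff' _ 0 0 1 (by simp) (by simp),
      ShortComplex.moduleCat_exact_iff] at h1
    obtain ⟨y, hy⟩ := h1 f (by
      change (groupCohomology.inhomogeneousCochains (Rep.trivial ℤ G ℤ)).d 0 (0 + 1) f = 0
      rw [groupCohomology.inhomogeneousCochains.d_def]
      exact hf)
    change (groupCohomology.inhomogeneousCochains (Rep.trivial ℤ G ℤ)).d 0 0 y = f at hy
    rw [HomologicalComplex.shape _ _ _ (by simp)] at hy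
    have h2 : (0 : ℤ) = f fun i => i.elim0 := congrFun hy _
    simp [f] at h2
  | succ n =>
    rw [HomologicalComplex.exactAt_iff' _ n (n + 1) (n + 2) (by simp) (by simp),
      ShortComplex.moduleCat_exact_iff] at h1
    obtain ⟨y, hy⟩ := h1 f (by
      change (groupCohomology.inhomogeneousCochains (Rep.trivial ℤ G ℤ)).d (n + 1) (n + 1 + 1) f = 0
      rw [groupCohomology.inhomogeneousCochains.d_def]
      exact hf)
    change (groupCohomology.inhomogeneousCochains (Rep.trivial ℤ G ℤ)).d n (n + 1) y = f at hy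
    rw [groupCohomology.inhomogeneousCochains.d_def] at hy
    rw [← alt_coboundary (fun g => (y g : ℤ)) z hz]
    refine Finset.sum_congr rfl fun σ _ => ?_
    have h2 := congrFun hy fun i => z (σ i)
    rw [Units.smul_def, smul_eq_mul]
    congr 1
    simp only [Matrix.of_apply]
    change f (fun i => z (σ i)) = _
    rw [← h2]
    exact d_triv _ _

end Vale.Agent.N203
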