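import Vale.Agent.P203.Gar.Delta
import Mathlib.LinearAlgebra.Matrix.Block

/-! Winding numbers of elements of an Artin group around the reflecting hyperplanes, and commuting
elements of the pure Artin group on which they are independent. -/

set_option linter.all false

namespace Vale.Agent.N203

open CoxeterSystem Vale.Agent.P203 Vale.Agent.P203.Gar Vale.Agent.P203.Cox

/-- Pairs of an integer function on `W` and an element of `W`. -/
@[ext] structure WG (W : Type) where
  n : W → ℤ
  w : W

instance instGroupWG (W : Type) [Group W] : Group (WG W) where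
  mul a b := ⟨fun x => a.n (b.w * x * b.w⁻¹) + b.n x, a.w * b.w⟩
  one := ⟨fun _ => 0, 1⟩
  inv a := ⟨fun x => -a.n (a.w⁻¹ * x * a.w), a.w⁻¹⟩
  mul_assoc a b c := by
    refine WG.ext (funext fun x => ?_) (mul_assoc _ _ _)
    show a.n (b.w * (c.w * x * c.w⁻¹) * b.w⁻¹) + b.n (c.w * x * c.w⁻¹) + c.n x =
      a.n (b.w * c.w * x * (b.w * c.w)⁻¹) + (b.n (c.w * x * c.w⁻¹) + c.n x)
    rw [add_assoc]
    congr 2
    group
  one_mul a := by
    refine WG.ext (funext fun x => ?_) (one_mul _)
    show 0 + a.n x = a.n x
    rw [zero_add]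
  mul_one a := by
    refine WG.ext (funext fun x => ?_) (mul_one _)
    show a.n (1 * x * 1⁻¹) + 0 = a.n x
    rw [add_zero, inv_one, one_mul, mul_one]
  inv_mul_cancel a := by
    refine WG.ext (funext fun x => ?_) (inv_mul_cancel _)
    show -a.n (a.w⁻¹ * (a.w * x * a.w⁻¹) * a.w) + a.n x = 0
    have : a.w⁻¹ * (a.w * x * a.w⁻¹) * a.w = x := by group
    rw [this, neg_add_cancel]

theorem WG.mul_n {W : Type} [Group W] (a b : WG W) (x : W) :
    (a * b).n x = a.n (b.w * x * b.w⁻¹) + b.n x := rfl

theorem WG.inv_n {W : Type} [Group W] (a : WG W) (x : W) :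
    (a⁻¹).n x = -a.n (a.w⁻¹ * x * a.w) := rfl

/-- The projection to `W`. -/
def WG.snd (W : Type) [Group W] : WG W →* W where
  toFun a := a.w
  map_one' := rfl
  map_mul' _ _ := rfl

variable {S : Type} (M : CoxeterMatrix S)

open Classical in
/-- The image of a generator. -/
noncomputable def gen (s : S) : WG M.Group := ⟨fun x => if x = M.simple s then 1 else 0, M.simple s⟩

open Classical in
theorem alt_n (m : ℕ) : ∀ (i j : S) (x : M.Group), ((alternatingWord i j m).map (gen M)).prod.n x =
    ∑ k ∈ Finset.range m, if x = (M.simple j * M.simple i) ^ k * M.simple j then 1 else 0 := by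
  induction m with
  | zero => intro i j x; rfl
  | succ m ih =>
    intro i j x
    rw [alternatingWord_succ, List.concat_eq_append, List.map_append, List.prod_append,
      List.map_singleton, List.prod_singleton, WG.mul_n, ih, Finset.sum_range_succ']
    refine congrArg₂ (· + ·) ?_ (by simp only [gen, pow_zero, one_mul])
    · refine Finset.sum_congr rfl fun k _ => ?_
      refine if_congr ?_ rfl rfl
      show M.simple j * x * (M.simple j)⁻¹ = _ ↔ _
      have e : (M.simple j * M.simple i) ^ (k + 1) * M.simple j =
          (M.simple j)⁻¹ * ((M.simple i * M.simple j) ^ k * M.simple i) * M.simple j := by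
        rw [mul_pow_mul, simple_inv, pow_succ]
        group
      rw [e]
      constructor
      · intro h
        rw [← h]
        group
      · intro h
        rw [h]
        group

theorem isBraided_gen : IsBraided M (gen M) := by
  classical
  intro i j hij
  refine WG.ext (funext fun x => ?_) ?_
  · rw [alt_n, alt_n, ← Finset.sum_range_reflect]
    refine Finset.sum_congr rfl fun k hk => ?_
    have hk' := Finset.mem_range.1 hk
    have h1 : (M.simple j * M.simple i) ^ (M i j) = 1 :=
      M.toCoxeterSystem.simple_mul_simple_pow' i j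
    have h2 : (M.simple j * M.simple i) ^ (M i j - 1 - k) * M.simple j =
        (M.simple i * M.simple j) ^ k * M.simple i := by
      have e1 : M.simple i * M.simple j = (M.simple j * M.simple i)⁻¹ := by
        rw [mul_inv_rev, simple_inv, simple_inv]
      have e2 : M i j = k + (M i j - 1 - k) + 1 := by omega
      rw [e2, pow_succ, pow_add] at h1
      have e3 : (M.simple j * M.simple i) ^ k *
          ((M.simple j * M.simple i) ^ (M i j - 1 - k) * M.simple j) = (M.simple i)⁻¹ := by
        rw [eq_inv_iff_mul_eq_one, ← h1]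
        simp only [mul_assoc]
      rw [e1, inv_pow, eq_inv_mul_iff_mul_eq, e3, simple_inv]
    rw [h2]
  · have h : ∀ l : List S, (l.map (gen M)).prod.w = (l.map M.simple).prod := by
      intro l
      show WG.snd _ _ = _
      rw [map_list_prod, List.map_map]
      rfl
    rw [h, h]
    exact isBraided_simple M i j hij

/-- The homomorphism that records winding numbers. -/
noncomputable def Phi : ArtinGroup M →* WG M.Group :=
  PresentedGroup.toGroup (f := gen M) (by
    rintro r ⟨s, t, h, rfl⟩
    rw [map_mul, map_inv, mul_inv_eq_one, map_list_prod, map_list_prod, List.map_map,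
      List.map_map]
    have := isBraided_gen M s t h
    simpa [Function.comp_def] using this)

variable {M}

theorem Phi_gen (s : S) : Phi M (artinGen M s) = gen M s := by
  simp only [Phi, artinGen, PresentedGroup.toGroup.of]

theorem Phi_w (a : ArtinGroup M) : (Phi M a).w = toW M a := by
  have h : (WG.snd _).comp (Phi M) = toW M := by
    refine PresentedGroup.ext fun s => ?_
    show WG.snd _ (Phi M (artinGen M s)) = toW M (artinGen M s)
    rw [Phi_gen, toW_gen]
    rfl
  exact DFunLike.congr_fun h a

/-- The winding number of `a` around the hyperplane of the reflection `x`. -/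
noncomputable def wind (a : ArtinGroup M) (x : M.Group) : ℤ := (Phi M a).n x

theorem wind_mul (a b : ArtinGroup M) (x : M.Group) :
    wind (a * b) x = wind a (toW M b * x * (toW M b)⁻¹) + wind b x := by
  rw [wind, map_mul, WG.mul_n, Phi_w]
  rfl

open Classical in
theorem wind_gen (s : S) (x : M.Group) :
    wind (artinGen M s) x = if x = M.simple s then 1 else 0 := by
  rw [wind, Phi_gen]
  rfl

theorem wind_one (x : M.Group) : wind (1 : ArtinGroup M) x = 0 := by
  rw [wind, map_one]
  rfl

theorem wind_eq_zero {U : Set S} {a : ArtinGroup M} (ha : a ∈ AP M U) :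
    ∀ x, x ∉ WP M U → wind a x = 0 := by
  induction ha using Subgroup.closure_induction with
  | mem a ha =>
    obtain ⟨s, hs, rfl⟩ := ha
    intro x hx
    rw [wind_gen, if_neg]
    rintro rfl
    exact hx (simple_mem_parab hs)
  | one => exact fun x _ => wind_one x
  | mul a b _ hb iha ihb =>
    intro x hx
    have hw := toW_mem_WP (T := U) hb
    rw [wind_mul, ihb x hx, iha, add_zero]
    intro h
    apply hx
    have := mul_mem (mul_mem (inv_mem hw) h) hw
    simpa [mul_assoc] using this
  | inv a ha ih =>
    intro x hx
    have hw := toW_mem_WP (T := U) ha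
    rw [wind, map_inv, WG.inv_n, Phi_w, neg_eq_zero]
    refine ih _ fun h => hx ?_
    have := mul_mem (mul_mem hw h) (inv_mem hw)
    simpa [mul_assoc] using this

theorem wind_nonneg {U : Set S} {a : ArtinGroup M} (ha : a ∈ PM M U) : ∀ x, 0 ≤ wind a x := by
  refine PM_induction_left (p := fun a => ∀ x, 0 ≤ wind a x) (fun x => (wind_one x).ge)
    (fun t _ b _ ih x => ?_) ha
  rw [wind_mul, wind_gen]
  have := ih x
  split_ifs <;> omega

section Finite

variable {T : Set S} [Finite (WP M T)]

theorem wind_sq_pos {s : S} (hs : s ∈ T) : 0 < wind (Dl M T * Dl M T) (M.simple s) := by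
  have h1 : Dl M T = tl (wo M T * (M.simple s)⁻¹) * artinGen M s := by
    have := Dl_eq_mul_tl (M := M) (T := T) (v := M.simple s) (simple_mem_parab hs)
    rwa [tl_simple] at this
  have h2 : 1 ≤ wind (Dl M T) (M.simple s) := by
    rw [h1, wind_mul, wind_gen, if_pos rfl]
    have := wind_nonneg (tl_mem_PM (T := T) (w := wo M T * (M.simple s)⁻¹)
      (mul_mem w0_mem (inv_mem (simple_mem_parab hs))))
      (toW M (artinGen M s) * M.simple s * (toW M (artinGen M s))⁻¹)
    omega
  rw [wind_mul]
  have := wind_nonneg (Dl_mem_PM (M := M) (T := T))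
    (toW M (Dl M T) * M.simple s * (toW M (Dl M T))⁻¹)
  omega

theorem toW_sq : toW M (Dl M T * Dl M T) = 1 := by
  rw [map_mul, toW_tl]
  exact w0_mul_self

theorem sq_comm {a : ArtinGroup M} (ha : a ∈ AP M T) : Commute (Dl M T * Dl M T) a := by
  induction ha using Subgroup.closure_induction with
  | mem a ha =>
    obtain ⟨s, hs, rfl⟩ := ha
    show Dl M T * Dl M T * artinGen M s = artinGen M s * (Dl M T * Dl M T)
    rw [mul_assoc, Dl_mul_gen hs, ← mul_assoc, ← gen_mul_Dl hs, mul_assoc]
  | one => exact Commute.one_right _
  | mul a b _ _ iha ihb => exact iha.mul_right ihb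
  | inv a _ ih => exact ih.inv_right

end Finite

/-- The pure elements of the standard parabolic subgroup. -/
noncomputable abbrev PT (M : CoxeterMatrix S) (T : Finset S) : Subgroup (ArtinGroup M) :=
  (toW M).ker ⊓ AP M (T : Set S)

theorem wind_add {T : Finset S} (x : M.Group) (a b : PT M T) :
    wind (a * b).1 x = wind a.1 x + wind b.1 x := by
  have hb : toW M b.1 = 1 := b.2.1
  show wind (a.1 * b.1) _ = _
  rw [wind_mul, hb, inv_one, one_mul, mul_one]

/-- For a spherical set of size `d` there are `d` commuting pure elements whose winding numbers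
around the walls form a matrix with nonzero determinant. -/
theorem exists_torus {T : Finset S} (hT : Spherical M T) :
    ∃ (e : Fin T.card → S) (z : Fin T.card → PT M T), (∀ i j, z i * z j = z j * z i) ∧
      (Matrix.of fun j i => wind (z j).1 (M.simple (e i))).det ≠ 0 := by
  let e : Fin T.card → S := fun i => (T.equivFin.symm i : S)
  have he : Function.Injective e := fun i j h => T.equivFin.symm.injective (Subtype.ext h)
  let U : Fin T.card → Set S := fun j => e '' {i | i ≤ j}
  have hU : ∀ j, U j ⊆ (T : Set S) := by
    rintro j _ ⟨i, -, rfl⟩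
    exact (T.equivFin.symm i).2
  haveI hTf : Finite (WP M (T : Set S)) := hT
  haveI : ∀ j, Finite (WP M (U j)) := fun j => finite_parab_mono (hU j)
  have hmem : ∀ j, Dl M (U j) * Dl M (U j) ∈ AP M (U j) := fun j => mul_mem Dl_mem_AP Dl_mem_AP
  have hc : ∀ i j, i ≤ j → Commute (Dl M (U j) * Dl M (U j)) (Dl M (U i) * Dl M (U i)) := by
    intro i j hij
    exact sq_comm (AP_mono (Set.image_mono fun k (hk : k ≤ i) => hk.trans hij) (hmem i))
  refine ⟨e, fun j => ⟨Dl M (U j) * Dl M (U j), toW_sq, AP_mono (hU j) (hmem j)⟩,
    fun i j => Subtype.ext ?_, ?_⟩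
  · rcases le_total i j with h | h
    · exact (hc i j h).symm.eq
    · exact (hc j i h).eq
  · rw [Matrix.det_of_isLowerTriangular]
    · exact Finset.prod_ne_zero_iff.2 fun i _ =>
        (wind_sq_pos (T := U i) ⟨i, (le_rfl : i ≤ i), rfl⟩).ne'
    · intro j i hij
      refine wind_eq_zero (hmem j) _ fun h => ?_
      obtain ⟨k, hk, hke⟩ := simple_mem_parab_iff.1 h
      rw [he hke] at hk
      exact absurd hk (not_le.2 hij)

end Vale.Agent.N203
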