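import Vale.Agent.N203.Coh
import Vale.Agent.N203.Wind
import Vale.Agent.P203.Asm.GoodFacts
import Vale.Agent.P203.Hom.Bridge
import Vale.Agent.P203.Hom.PosetInst
import Vale.Agent.P203.H895.Facts
import Vale.Agent.P203S46.Sal

/-! The cohomological dimension of an Artin group, and the absence of torsion. -/

set_option linter.all false

namespace Vale.Agent.N203

open CategoryTheory Limits Vale.Agent.P203 Vale.Agent.P203.Gar

variable {S : Type} [Finite S] (M : CoxeterMatrix S)

theorem isZero_above (n : ℕ) (hn : ∀ T : Finset S, Spherical M T → T.card ≠ n)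
    (V : Rep ℤ (ArtinGroup M)) : IsZero (groupCohomology V n) := by
  classical
  letI : Fintype S := Fintype.ofFinite S
  letI : LinearOrder S := LinearOrder.lift' (Fintype.equivFin S) (Fintype.equivFin S).injective
  have hg := Asm.good_of_facts M (Dg.H895.twistFacts (ZMod 2) _) (Hom.posetTheory_hom M)
  let ε : Chain M (ArtinGroup M) 0 →ₗ[MonoidAlgebra ℤ (ArtinGroup M)]
      (Rep.trivial ℤ (ArtinGroup M) ℤ).ρ.asModule :=
    Finsupp.linearCombination _ fun _ => (Rep.trivial ℤ (ArtinGroup M) ℤ).ρ.asModuleEquiv.symm 1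
  have hε : ∀ z, (Rep.trivial ℤ (ArtinGroup M) ℤ).ρ.asModuleEquiv (ε z) = Hom.aug M z := by
    intro z
    induction z using Hom.chain_induction with
    | h0 => rw [map_zero, map_zero, map_zero]
    | hadd x y hx hy => rw [map_add, map_add, map_add, hx, hy]
    | hs c g r =>
      rw [Hom.aug_single]
      simp only [ε, Finsupp.linearCombination_single]
      rw [Representation.asModuleEquiv_map_smul, Representation.asAlgebraHom_single]
      simp
  refine isZero_of_resolution (k := ℤ) (fun n => Chain M (ArtinGroup M) n)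
    (fun n => bdry M (artinGen M) n) (Hom.exact_of_good hg) ε (fun z => ?_) (fun y => ?_) n ?_ V
  · rw [← Hom.exact_aug_of_good hg z, ← hε z]
    exact (map_eq_zero_iff _ (LinearEquiv.injective _)).symm
  · refine ⟨Finsupp.single ⟨∅, Sph.spherical_empty, rfl⟩
      (MonoidAlgebra.single 1 ((Rep.trivial ℤ (ArtinGroup M) ℤ).ρ.asModuleEquiv y)), ?_⟩
    apply (Rep.trivial ℤ (ArtinGroup M) ℤ).ρ.asModuleEquiv.injective
    rw [hε, Hom.aug_single]
  · haveI : IsEmpty (Cell M n) := ⟨fun c => hn c.T c.spherical c.card_eq⟩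
    infer_instance

theorem torsion_free (g : ArtinGroup M) (n : ℕ) (hn : n ≠ 0) (hg : g ^ n = 1) : g = 1 := by
  letI : Fintype S := Fintype.ofFinite S
  refine eq_one_of_isZero (Fintype.card S) (fun V => isZero_above M _ (fun T _ h => ?_) V) g n hn hg
  have := T.card_le_univ
  omega

omit [Finite S] in
theorem pure_not_isZero {T : Finset S} (hT : Spherical M T) :
    ¬ IsZero (groupCohomology (Rep.trivial ℤ (PT M T) ℤ) T.card) := by
  obtain ⟨e, z, h1, h2⟩ := exists_torus hT
  exact not_isZero (fun i a => wind a.1 (M.simple (e i))) (fun i => wind_add _) z h1 h2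

theorem cd_eq (d : ℕ) (hd : IsGreatest {n | ∃ T : Finset S, Spherical M T ∧ T.card = n} d) :
    IsGreatest {n | ∃ V : Rep ℤ (ArtinGroup M), Nontrivial (groupCohomology V n)} d := by
  constructor
  · obtain ⟨T, hT, rfl⟩ := hd.1
    refine ⟨Rep.coind (PT M T).subtype (Rep.trivial ℤ (PT M T) ℤ), ?_⟩
    rw [← not_subsingleton_iff_nontrivial]
    intro h
    exact pure_not_isZero M hT
      ((ModuleCat.isZero_of_subsingleton _).of_iso (groupCohomology.coindIso _ _).symm)
  · rintro n ⟨V, hV⟩
    by_contra hn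
    have h := isZero_above M n (fun T hT e => hn (hd.2 ⟨T, hT, e⟩)) V
    exact not_subsingleton _ (ModuleCat.subsingleton_of_isZero h)

end Vale.Agent.N203
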