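import Vale.Agent.N203.Center

/-! P203. Withdrawn from the hand-ins: consequences of the K(π,1) theorem for all Artin groups
(absence of torsion, cohomological dimension, centre). -/

namespace Vale.Agent.N203.OldTorsionCenter

open Vale.Agent.P203 Vale.Agent.P203S

/-- For every Coxeter matrix `M` on a finite set `S`: (1) the Salvetti complex and the orbit space
`Y/W` are spaces `K(A_M, 1)`; (2) the Artin group has no torsion; (3) its cohomological dimension
is the largest size of a spherical subset; (4) its centre is trivial if and only if no nonempty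
spherical subset is a union of components of the Coxeter diagram. -/
theorem consequences {S : Type} [Finite S] (M : CoxeterMatrix S) :
    (IsKPiOne (ArtinGroup M) (Salvetti M) ∧ IsKPiOne (ArtinGroup M) (OrbitSpace M)) ∧
    (∀ (g : ArtinGroup M) (n : ℕ), n ≠ 0 → g ^ n = 1 → g = 1) ∧
    (∀ d : ℕ, IsGreatest {n | ∃ T : Finset S, Spherical M T ∧ T.card = n} d →
      IsGreatest {n | ∃ V : Rep ℤ (ArtinGroup M), Nontrivial (groupCohomology V n)} d) ∧
    (Subgroup.center (ArtinGroup M) = ⊥ ↔
      ∀ U : Finset S, U.Nonempty → Spherical M U → ∃ s ∈ U, ∃ t ∉ U, M s t ≠ 2) :=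
  ⟨⟨kpi_all.1, kpi_all.2.1⟩, Vale.Agent.N203.torsion_free M, Vale.Agent.N203.cd_eq M,
    Vale.Agent.N203.center_iff⟩

end Vale.Agent.N203.OldTorsionCenter
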